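import Vale.Agent.BDU.Main

/-!
# P250

A simply connected, complete, negatively pinched Kähler manifold of complex dimension three which
is not biholomorphic to a bounded domain.
-/

namespace Vale.Agent.Results.P250.PinchedNotBounded

theorem result : Vale.BDU.NegativelyPinchedCounterexample :=
  Vale.BDU.negativelyPinchedCounterexample

end Vale.Agent.Results.P250.PinchedNotBounded
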